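import Vale.Agent.P036.Cascade.Sets
import Vale.Agent.P036.Cascade.Average
import Vale.Agent.P036.Cascade.Scale

/-!
# P036: Heilbronn's triangle problem, a lower bound beyond every power of the logarithm
-/

namespace Vale.Agent.Results.P036.CascadeLowerBound

open Vale.P036.Cascade

/-- For some absolute `c > 0` and all large `n` there are `n` points in the unit square with every
triangle of area at least `exp (c √(log n / log log n)) / n²`. -/
theorem result : ∃ c : ℝ, 0 < c ∧ ∃ n₀ : ℕ, ∀ n : ℕ, n₀ ≤ n →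
    ∃ P : Finset (ℝ × ℝ), P.card = n ∧
      (∀ p ∈ P, (0 ≤ p.1 ∧ p.1 ≤ 1) ∧ (0 ≤ p.2 ∧ p.2 ≤ 1)) ∧
      ∀ p ∈ P, ∀ q ∈ P, ∀ r ∈ P, p ≠ q → p ≠ r → q ≠ r →
        Real.exp (c * Real.sqrt (Real.log n / Real.log (Real.log n))) / (n : ℝ) ^ 2 ≤
          |(q.1 - p.1) * (r.2 - p.2) - (q.2 - p.2) * (r.1 - p.1)| / 2 := by
  obtain ⟨a₀, η, B, Cs, p₀, ha, hη, hη1, hB, hCs, hsets⟩ := exists_sets
  obtain ⟨c, hc, hev⟩ :=
    lower_bound_of_points (exists_points_of_sets ha hη hη1 hB hCs hsets)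
  exact ⟨c, hc, Filter.eventually_atTop.1 hev⟩

end Vale.Agent.Results.P036.CascadeLowerBound
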