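import Mathlib
import Vale.Agent.P036.EnergyBound

/-!
# P036: Heilbronn's triangle problem for sets of large additive energy
-/

namespace Vale.Agent.Results.P036.EnergySmallTriangle

open scoped Pointwise

/-- Every set of `n ≥ 3` points of the unit square with additive energy `E` spans a triangle of area
at most `128 n³ / E^(3/2)`, hence at most `128 |P ± P|^(3/2) / n³`. -/
theorem result : ∀ P : Finset (ℝ × ℝ),
    (∀ p ∈ P, (0 ≤ p.1 ∧ p.1 ≤ 1) ∧ (0 ≤ p.2 ∧ p.2 ≤ 1)) → 3 ≤ P.card →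
      ∃ p ∈ P, ∃ q ∈ P, ∃ r ∈ P, p ≠ q ∧ p ≠ r ∧ q ≠ r ∧
        |(q.1 - p.1) * (r.2 - p.2) - (q.2 - p.2) * (r.1 - p.1)| / 2 ≤
          128 * (P.card : ℝ) ^ 3 /
            ((P.addEnergy P : ℝ) * Real.sqrt (P.addEnergy P : ℝ)) ∧
        |(q.1 - p.1) * (r.2 - p.2) - (q.2 - p.2) * (r.1 - p.1)| / 2 ≤
          128 * (((P + P).card : ℝ) * Real.sqrt ((P + P).card : ℝ)) / (P.card : ℝ) ^ 3 ∧
        |(q.1 - p.1) * (r.2 - p.2) - (q.2 - p.2) * (r.1 - p.1)| / 2 ≤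
          128 * (((P - P).card : ℝ) * Real.sqrt ((P - P).card : ℝ)) / (P.card : ℝ) ^ 3 := by
  classical
  intro P hbox hP
  obtain ⟨p, hp, q, hq, r, hr, h1, h2, h3, ha, hb, hc⟩ :=
    Vale.P036.EnergyBound.small_of_sumset P hbox hP
  refine ⟨p, hp, q, hq, r, hr, h1, h2, h3, ?_⟩
  simp only [Vale.P036.EnergyBound.twiceArea] at ha hb hc
  refine ⟨?_, ?_, ?_⟩
  · convert ha
  · convert hb
  · convert hc

end Vale.Agent.Results.P036.EnergySmallTriangle
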